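import Vale.Agent.P093.N0.Powers
import Vale.Agent.P251.M.MUMain

/-!
# P093, part N0: the homotopy of `MU` modulo every prime

* `MUAll D` : the fields `odd`, `surj`, `ker` of `D : MUData T` for every prime `p` (the fields of
  `MUData` are restricted to odd primes);
* `exists_muAll` : for every `T` as in `MU_statement` with a `SpaceFunctor` there is `D : MUData T`
  with `MUUniv e D` and `MUAll D`.
-/

open CategoryTheory MonoidalCategory Limits Pretriangulated MonObj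
open Vale.Agent.P251.G Vale.Agent.P251.G.LC Vale.Agent.P251.I Vale.Agent.P251.T
open Vale.Agent.P251.F Vale.Agent.P251.S Vale.Agent.P251.M
open Vale.Agent.P251.M.EvenSpheres

universe v u

set_option linter.unusedSectionVars false

noncomputable section

namespace Vale.Agent.P093.N0

variable {T : Type u} [Category.{v} T] [Preadditive T] [HasZeroObject T]
    [HasShift T ℤ] [∀ n : ℤ, (shiftFunctor T n).Additive] [Pretriangulated T] [IsTriangulated T]
    [MonoidalCategory T] [SymmetricCategory T] [TensorTriangulated T] [MonoidalClosed T]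
    [HasCoproducts.{0} T] [HasProducts.{0} T] [StableCat T]

/-- The fields `odd`, `surj`, `ker` of `MUData`, for every prime `p`. -/
structure MUAll (D : MUData T) : Prop where
  /-- the odd homotopy of `R^{⊗ (s+1)} ⊗ S/p` vanishes -/
  odd (p : ℕ) [Fact p.Prime] (s : ℕ) (C : T) (i : 𝟙_ T ⟶ C) (δ : C ⟶ (𝟙_ T)⟦(1 : ℤ)⟧)
    (hC : Triangle.mk ((p : ℤ) • 𝟙 (𝟙_ T)) i δ ∈ distTriang T) (k : ℤ)
    (f : (𝟙_ T)⟦2 * k + 1⟧ ⟶ Am D.R (s + 1) ⊗ C) : f = 0
  /-- `Cob Laz s → π_{2w}(R^{⊗ (s+1)} ⊗ S/p)` is onto -/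
  surj (p : ℕ) [Fact p.Prime] (s : ℕ) (C : T) (i : 𝟙_ T ⟶ C) (δ : C ⟶ (𝟙_ T)⟦(1 : ℤ)⟧)
    (hC : Triangle.mk ((p : ℤ) • 𝟙 (𝟙_ T)) i δ ∈ distTriang T) (w : ℤ)
    (f : (stdEven T).S w ⟶ Am D.R (s + 1) ⊗ C) :
    ∃ (z : Cob Laz s) (a : (stdEven T).S w ⟶ Am D.R (s + 1)), Cob.IsWt w z ∧
      D.ev s z = HRing.of (stdEven T) (Am D.R (s + 1)) w a ∧
      f = a ≫ (ρ_ (Am D.R (s + 1))).inv ≫ (Am D.R (s + 1) ◁ i)
  /-- its kernel is `p · Cob Laz s` -/
  ker (p : ℕ) [Fact p.Prime] (s : ℕ) (C : T) (i : 𝟙_ T ⟶ C) (δ : C ⟶ (𝟙_ T)⟦(1 : ℤ)⟧)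
    (hC : Triangle.mk ((p : ℤ) • 𝟙 (𝟙_ T)) i δ ∈ distTriang T) (w : ℤ) (z : Cob Laz s)
    (hz : Cob.IsWt w z) (a : (stdEven T).S w ⟶ Am D.R (s + 1))
    (ha : D.ev s z = HRing.of (stdEven T) (Am D.R (s + 1)) w a)
    (h : a ≫ (ρ_ (Am D.R (s + 1))).inv ≫ (Am D.R (s + 1) ◁ i) = 0) :
    ∃ y : Cob Laz s, Cob.IsWt w y ∧ z = (p : ℤ) • y

section

variable {A : SeqMonoid T} {R : T} {q : ∀ n, A.E.obj n ⟶ R} (tel : IsTel A.E R q)
  [MonObj R] [IsCommMonObj R] (h : TelMon tel)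

include h in
theorem piConn_of (F : SpaceFunctor T) (hA : EvenSeq A (stdEven T)) : PiConn R :=
  PiConn.of_cofIn F A tel h.one hA.cof

/-- The output of part Q in terms of the homotopy groups of `Am R 1`, for every prime. -/
theorem qIn_of {F : SpaceFunctor T} {s : F.S.obj CCF ⟶ (MSys.ofSeq A (stdEven T)).obj 0 1}
    {hs : (MSys.ofSeq A (stdEven T)).IsSusp s} (W : ThomFam (MSys.ofSeq A (stdEven T)) F s)
    (hW : W.IsoClasses) (hA : EvenSeq A (stdEven T)) {V : MUEv R} (b : MUBasis V)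
    (hlaw : b.cobEv.law.map (HRing.map (E := stdEven T) (amOne R)) =
      (thomTheory W (cofTriangles F) hs hW hA).o.law.map
        (coefRing tel F h (cofTriangles F) s hs).toRingHom) {p : ℕ} (hp : p.Prime) :
    QIn (Am R 1) b.cobEv.law p := by
  have hπ : PiConn R := piConn_of tel h F hA
  have h1 : amOne R ≫ Am.v R (0 : Fin 1) = 𝟙 (Am R 1) := amOne_v_zero R
  have hQ := ThomTheory.qData_of_euler (thomTheory W (cofTriangles F) hs hW hA) hp
    (fun r _ k => lensEuler _ r k) (fun a ha => by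
      have h2 : ((p : ℤ) * a) • (theory (MSys.ofSeq A (stdEven T)) F (cofTriangles F) s hs).one =
          0 := by
        rw [mul_smul, natCast_zsmul]
        exact ha
      have h3 := zsmul_one_eq_zero tel h (cofTriangles F) s hs hπ _ h2
      have h4 : a = 0 := (mul_eq_zero.mp h3).resolve_left (by exact_mod_cast hp.ne_zero)
      rw [h4, zero_smul])
  exact (QIn.of_qData tel h (cofTriangles F) s hs hQ).of_iso (amOne R) (Am.v R (0 : Fin 1)) h1
    hlaw

end

namespace MUMon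

variable {F : SpaceFunctor T} {e : F.S.obj CCF ≅ (stdEven T).L} (M : MUMon F (stdEven T) e)

theorem qIn (b : MUBasis M.V) {p : ℕ} (hp : p.Prime) : QIn (Am M.R 1) b.cobEv.law p :=
  qIn_of M.tel M.telMon (famMU F (stdEven T) e) (famMU_isoClasses F (stdEven T) e)
    (evenSeq_MU F (stdEven T) e stdEven_sph) b
    ((law_muEv e _ b).trans (law_push_eq e M.tel M.telMon
      (isSusp_lineCls e (seqMU F (stdEven T) e)) (line_telHom M.tel e M.telMon rfl) _)) hp

theorem piConn : PiConn (Am M.R 1) :=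
  PiConn.of_iso (amOne M.R) (Am.v M.R (0 : Fin 1)) (amOne_v_zero M.R)
    (piConn_of M.tel M.telMon F (evenSeq_MU F (stdEven T) e stdEven_sph))

/-- **Quillen's theorem modulo every prime.** -/
theorem muAll (b : MUBasis M.V) : MUAll (M.data b) where
  odd _ hpf s C _ _ hC k f :=
    b.cobEv.odd (Iso.refl _) C (fun k f => (qIn M b hpf.out).odd hC k f) s k f
  surj _ hpf s _ i _ hC w f :=
    b.cobEv.surj (fun n => ⟨2 * n, ⟨(stdEven T).sphIso (Iso.refl _) n⟩⟩) i
      (fun w f => b.cobEv.surj₀ (qIn M b hpf.out) hC w f) s w f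
  ker p hpf s _ i _ hC w z hz a ha h :=
    b.cobEv.ker i (p : ℤ) (fun w z hz a ha h0 =>
      b.cobEv.ker₀ (qIn M b hpf.out) (piConn M) hC w z hz a ha h0) s w z hz a ha h

end MUMon

/-- `MUAll` for a `D` with `MUUniv e D`. -/
theorem exists_muAll (F : SpaceFunctor T) (e : F.S.obj CCF ≅ (stdEven T).L) :
    ∃ D : MUData T, MUUniv e D ∧ MUAll D := by
  obtain ⟨M⟩ := nonempty_MUMon F (stdEven T) e
  obtain ⟨b⟩ := M.nonempty_muBasis
  exact ⟨M.data b, M.muUniv b, MUMon.muAll M b⟩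

end Vale.Agent.P093.N0
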