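import Vale.Agent.P251.Q.Main

/-!
# P093, part N0: the theorem of Quillen modulo every prime, part Q

The file `P251/Q/Powers.lean` constructs the input `HasPowers` of Theorem Q for odd primes only: in
degree `0` the value `x ^ p` of the total power of `x` at the base point is a product of at least
three factors, hence `0`.  Here `HasPowers` is proved for every prime: the classes `x` for which there
is a power operation which vanishes at the base point form a group which contains `x - x ^ p` for
all `x`, hence also `x = (x - x ^ p) + (x ^ p - (x ^ p) ^ p)` as soon as triple products vanish.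
-/

open CategoryTheory MonoidalCategory OnePoint Topology
open Vale.Agent.P251.G Vale.Agent.P251.G.LC Vale.Agent.P251.F
open Vale.Agent.P251.Q Vale.Agent.P251.Q.MultTheory

universe v

namespace Vale.Agent.P093.N0

variable {C : Type} [CommRing C]

section

variable {E : MultTheory.{v}} (D : CoeffData E C)

section vspan

variable {Y : LC} [E.Good Y] [CompactSpace Y] {v : E.U Y}

theorem one_mem_vspan : (1 : E.U Y) ∈ D.vspan v :=
  AddSubgroup.subset_closure ⟨1, 0, by rw [map_one, pow_zero, one_smul]⟩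

theorem smul_mem_vspan (c : C) {a : E.U Y} (ha : a ∈ D.vspan v) : D.φ c • a ∈ D.vspan v := by
  refine AddSubgroup.closure_induction ?_ ?_ ?_ ?_ ha
  · rintro z ⟨c', l, rfl⟩
    exact AddSubgroup.subset_closure ⟨c * c', l, by rw [map_mul, mul_smul]⟩
  · rw [smul_zero]; exact zero_mem _
  · intro a b _ _ ha hb
    rw [smul_add]; exact add_mem ha hb
  · intro a _ ha
    rw [smul_neg]; exact neg_mem ha

theorem mul_mem_vspan {a b : E.U Y} (ha : a ∈ D.vspan v) (hb : b ∈ D.vspan v) :
    a * b ∈ D.vspan v := by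
  refine AddSubgroup.closure_induction ?_ ?_ ?_ ?_ ha
  · rintro z ⟨c, l, rfl⟩
    rw [MultTheory.smul_mul']
    apply smul_mem_vspan
    refine AddSubgroup.closure_induction ?_ ?_ ?_ ?_ hb
    · rintro z ⟨c', l', rfl⟩
      refine AddSubgroup.subset_closure ⟨c', l + l', ?_⟩
      rw [MultTheory.mul_smul_right, pow_add]
    · rw [mul_zero]; exact zero_mem _
    · intro a b _ _ ha hb
      rw [mul_add]; exact add_mem ha hb
    · intro a _ ha
      rw [mul_neg]; exact neg_mem ha
  · rw [zero_mul]; exact zero_mem _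
  · intro a b _ _ ha hb
    rw [add_mul]; exact add_mem ha hb
  · intro a _ ha
    rw [neg_mul]; exact neg_mem ha

theorem pow_mem_vspan {a : E.U Y} (ha : a ∈ D.vspan v) (n : ℕ) : a ^ n ∈ D.vspan v := by
  induction n with
  | zero => rw [pow_zero]; exact one_mem_vspan D
  | succ n ih => rw [pow_succ]; exact mul_mem_vspan D ih ha

theorem ev_mem_vspan (k : ℕ) (f : PowerSeries C) : D.ev k v f ∈ D.vspan v :=
  sum_mem fun l _ => AddSubgroup.subset_closure ⟨PowerSeries.coeff l f, l, rfl⟩

theorem act_mem_posPoly {X : LC} [E.Good X] {c : E.U Y} (hc : c ∈ D.vspan v) {d : ℤ}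
    {z : E.U (Y ⊗ X)} (hz : z ∈ D.posPoly v X d) : E.act (fstC Y X) c z ∈ D.posPoly v X d := by
  refine AddSubgroup.closure_induction ?_ ?_ ?_ ?_ hz
  · rintro z ⟨c', l, i, g, hi, hg, rfl⟩
    have h1 : E.act (fstC Y X) c (D.φ c' • E.cross (v ^ l) g) =
        E.cross (D.φ c' • (c * v ^ l)) g := by
      rw [act_smul_right, cross_smul_left]
      congr 1
      exact act_cross_left (ContinuousMap.id Y) c (v ^ l) g
    rw [h1]
    refine D.cross_mem_posPoly v (smul_mem_vspan D c' (mul_mem_vspan D hc ?_)) hi hg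
    exact AddSubgroup.subset_closure ⟨1, l, by rw [map_one, one_smul]⟩
  · rw [map_zero]; exact zero_mem _
  · intro a b _ _ ha hb
    rw [map_add]; exact add_mem ha hb
  · intro a _ ha
    rw [map_neg]; exact neg_mem ha

end vspan

variable {D}

variable {p : ℕ} (L : LensData E D p)

/-- The classes of degree `0` for which there is a power operation vanishing at the base point. -/
def PZero (X : LC) [E.Good X] (x : E.U X) : Prop :=
  ∃ n : ℕ, ∀ k : ℕ, ∃ P ∈ E.deg (L.B k ⊗ X) 0, ptRes E (L.b k) X P = 0 ∧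
    E.act (fstC (L.B k) X) (D.ev k (L.v k) (wSeries D.F p) ^ n) P -
      E.cross (D.ev k (L.v k) (wSeries D.F p) ^ n) x ∈ D.posPoly (L.v k) X 0

theorem act_pow_cross {Y X : LC} [E.Good Y] [CompactSpace Y] [E.Good X] (a b : E.U Y)
    (x : E.U X) : E.act (fstC Y X) a (E.cross b x) = E.cross (a * b) x :=
  act_cross_left (ContinuousMap.id Y) a b x

theorem PZero.add {X : LC} [E.Good X] {x y : E.U X} (hx : PZero L X x) (hy : PZero L X y) :
    PZero L X (x + y) := by
  obtain ⟨n, hx⟩ := hx
  obtain ⟨m, hy⟩ := hy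
  refine ⟨n + m, fun k => ?_⟩
  obtain ⟨P, hP, hP0, h1⟩ := hx k
  obtain ⟨Q, hQ, hQ0, h2⟩ := hy k
  refine ⟨P + Q, add_mem hP hQ, by rw [map_add, hP0, hQ0, add_zero], ?_⟩
  set w := D.ev k (L.v k) (wSeries D.F p) with hw
  have hwm : ∀ j, w ^ j ∈ D.vspan (L.v k) := fun j => pow_mem_vspan D (ev_mem_vspan D k _) j
  have h3 := add_mem (act_mem_posPoly D (hwm m) h1) (act_mem_posPoly D (hwm n) h2)
  have h4 : E.act (fstC (L.B k) X) (w ^ (n + m)) (P + Q) - E.cross (w ^ (n + m)) (x + y) =
      E.act (fstC (L.B k) X) (w ^ m)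
        (E.act (fstC (L.B k) X) (w ^ n) P - E.cross (w ^ n) x) +
      E.act (fstC (L.B k) X) (w ^ n)
        (E.act (fstC (L.B k) X) (w ^ m) Q - E.cross (w ^ m) y) := by
    rw [map_sub, map_sub, act_pow_cross, act_pow_cross, ← MultTheory.act_mul, ← MultTheory.act_mul, ← pow_add,
      ← pow_add, Nat.add_comm m n, map_add, map_add]
    abel
  rw [h4]
  exact h3

theorem ipow_deg {X : LC} [E.Good X] {x : E.U X} (hx : x ∈ E.deg X 0) (r : ℕ) :
    ipow x r ∈ E.deg X 0 := by
  induction r with
  | zero => exact hx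
  | succ r ih =>
    have := mul_deg hx ih
    rwa [add_zero] at this

end

namespace ThomTheory

variable (E : ThomTheory.{v}) {D : CoeffData E.toMultTheory C} {p : ℕ}

theorem ipow_ipow_eq_zero {E : MultTheory.{v}} {X : LC} [E.Good X]
    (h : ∀ x y z : E.U X, x * y * z = 0) (x : E.U X) {r : ℕ} (hr : 1 ≤ r) :
    ipow (ipow x r) r = 0 := by
  obtain ⟨r, rfl⟩ : ∃ r', r = r' + 1 := ⟨r - 1, by omega⟩
  change x * ipow x r * ipow (ipow x (r + 1)) r = 0
  have h1 : ∀ (y : E.U X) (n : ℕ), ∃ z : E.U X, ipow (x * y) n = x * z := by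
    intro y n
    induction n with
    | zero => exact ⟨y, rfl⟩
    | succ n ih =>
      obtain ⟨z, hz⟩ := ih
      exact ⟨y * (x * z), by rw [← mul_assoc, ← hz]; rfl⟩
  obtain ⟨z, hz⟩ := h1 (ipow x r) r
  have h2 : ipow (ipow x (r + 1)) r = x * z := hz
  rw [h2, ← mul_assoc, h]

/-- The power operations exist, for every prime. -/
theorem hasPowers {r : ℕ} (hr : p = r + 1) (hr1 : 1 ≤ r) (L : LensData E.toMultTheory D p)
    (hGr : ∀ (m : ℕ) (I : Type) [Fintype I], E.toMultTheory.Good (LC.of (Gr m I)))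
    (H : ∀ k, FrameData E.o L r k) : E.HasPowers L := by
  subst hr
  intro X hX h3
  -- the class of the power operation minus its value at the base point
  have key : ∀ x ∈ E.deg X 0, PZero L X (x - ipow x r) := by
    intro x hx
    have hx' : x ∈ E.deg X (-((0 : ℕ) : ℤ)) := by simpa using hx
    obtain ⟨N, m, hmN, hP⟩ := power_exists E hGr hx'
    refine ⟨m, fun k => ?_⟩
    have hB := (H k).goodB
    obtain ⟨P, hPdeg, hPpt, T, hT, x', e, c, hx', he, hc, hkey⟩ :=
      hP (H k).F ((H k).good N) (H k).rank (H k).eq_sum (H k).pos (H k).s_eq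
        (fun m I _ => (H k).euler m I)
    have hmN' : N = m := by omega
    subst hmN'
    refine ⟨P - pull E.toMultTheory (L.B k) X (ipow x r), ?_, ?_, ?_⟩
    · refine sub_mem ?_ ?_
      · simpa using hPdeg
      · have := cross_deg (oneU_deg (E := E.toMultTheory) (L.B k)) (ipow_deg hx r)
        rwa [zero_add] at this
    · rw [map_sub, LensData.ptRes_pull, sub_eq_zero]
      exact hPpt (L.b k)
    · set w := D.ev k (L.v k) (wSeries D.F (r + 1)) with hw
      have h1 : E.act (fstC (L.B k) X) (w ^ N) (pull E.toMultTheory (L.B k) X (ipow x r)) =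
          E.cross (w ^ N) (ipow x r) := by
        have := act_pow_cross (E := E.toMultTheory) (w ^ N) (1 : E.U (L.B k)) (ipow x r)
        rw [mul_one] at this
        exact this
      have h2 : E.act (fstC (L.B k) X) (w ^ N)
            (P - pull E.toMultTheory (L.B k) X (ipow x r)) -
          E.cross (w ^ N) (x - ipow x r) = ∑ t, E.cross (c t) (x' t) := by
        rw [map_sub, h1, map_sub, sub_sub_sub_cancel_right, sub_eq_iff_eq_add]
        exact hkey.trans (add_comm _ _)
      rw [h2]
      refine sum_mem fun t _ => D.cross_mem_posPoly (L.v k) (hc t) ?_ (hx' t)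
      simpa using he t
  intro q x hx
  rcases Nat.eq_zero_or_pos q with hq | hq
  · subst hq
    have hx0 : x ∈ E.deg X 0 := by simpa using hx
    have h1 := (key x hx0).add L (key _ (ipow_deg hx0 r))
    rw [ipow_ipow_eq_zero h3 x hr1, sub_zero, sub_add_cancel] at h1
    obtain ⟨n, hn⟩ := h1
    refine ⟨n, fun k => ?_⟩
    obtain ⟨P, hP, hP0, h⟩ := hn k
    exact ⟨P, by simpa using hP, fun _ => hP0, by simpa using h⟩
  · obtain ⟨N, m, hmN, hP⟩ := power_exists E hGr hx
    refine ⟨m, fun k => ?_⟩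
    have hB := (H k).goodB
    obtain ⟨P, hPdeg, hPpt, T, hT, x', e, c, hx', he, hc, hkey⟩ :=
      hP (H k).F ((H k).good N) (H k).rank (H k).eq_sum (H k).pos (H k).s_eq
        (fun m I _ => (H k).euler m I)
    refine ⟨P, hPdeg, fun h0 => absurd h0 hq.ne', ?_⟩
    have hN : m + q = N := hmN
    have h1 : E.act (fstC (L.B k) X) (D.ev k (L.v k) (wSeries D.F (r + 1)) ^ (m + q)) P -
        E.cross (D.ev k (L.v k) (wSeries D.F (r + 1)) ^ m) x = ∑ t, E.cross (c t) (x' t) := by
      rw [hN, sub_eq_iff_eq_add]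
      exact hkey.trans (add_comm _ _)
    rw [h1]
    exact sum_mem fun t _ => D.cross_mem_posPoly (L.v k) (hc t) (he t) (hx' t)

/-- Part Q from the data on the lens spaces, for every prime. -/
theorem qData_of_frames {p r : ℕ} (hp : p.Prime) (hr : p = r + 1)
    (L : LensData E.toMultTheory E.o.coeff p) (H : ∀ k, FrameData E.o L r k)
    (h1 : ∀ a : ℤ, p • a • E.one = 0 → a • E.one = 0) : QData E.toMultTheory E.o.law p := by
  have hpow : E.HasPowers L := hasPowers E hr (by have := hp.two_le; omega) L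
    (fun m I _ => inferInstance) H
  obtain ⟨hg, ht, hd, hot⟩ := E.quillen hp L hpow h1
  exact ⟨gen_homog (homPS_law E.o) hg, ht, hd, hot⟩

/-- Part Q from the formula for `e(γ ⊗ ρ̄)` over the lens spaces, for every prime. -/
theorem qData_of_euler {p : ℕ} (hp : p.Prime)
    (H : ∀ r, p = r + 1 → ∀ k, LensEuler E.o E.o.coeff r k (Idx k))
    (h1 : ∀ a : ℤ, p • a • E.one = 0 → a • E.one = 0) : QData E.toMultTheory E.o.law p := by
  obtain ⟨r, rfl⟩ : ∃ r, p = r + 1 := ⟨p - 1, by have := hp.two_le; omega⟩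
  exact qData_of_frames E hp rfl (E.o.lensTower (Nat.succ_ne_zero r))
    (fun k => frameData E.o E.o.coeff (hasLaw_coeff E.o) k (H r rfl k)) h1

end ThomTheory

end Vale.Agent.P093.N0
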